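import Vale.Agent.P352X.R.CONM
import Vale.Agent.P352L.CK.Fld
import Vale.Agent.P352L.Slot
import Vale.Agent.P352L.R.PW

/-!
# P352L, row CONM, part A: factorization of `w(T(h,k), W)`, the fluxes (helper69)
-/

set_option linter.all false

open MeasureTheory Filter Topology Set
open scoped SchwartzMap ComplexConjugate ContDiff

namespace Vale.Agent.P352L.Cm

open Vale.Agent.P352X Vale.Agent.P352X.Conm
open Vale.Agent.P352 Vale.Agent.P352.GF Vale.Agent.P352.BW Vale.Agent.P352.H246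
open Vale.Agent.P352.H496 Vale.Agent.P352.H755 Vale.Agent.P352.H15
open UniformSpace (Completion)
open Complex (I)

export Vale.Agent.P352X.Conm (Wt Bs da pr_eq XX)

noncomputable section

variable {D : Type*} [NormedAddCommGroup D] [InnerProductSpace ℂ D] {c : Ctx D}

/-- the crossing leg is `W` -/
def wW (w : I2 → I2 → S2 →L[ℂ] Completion D) (I : I2) : S2 →L[ℂ] Completion D :=
  ∑ K, w I K ∘L hD i2 K

/-- a kernel whose trace in the second leg is `wW w` -/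
def lw (w : I2 → I2 → S2 →L[ℂ] Completion D) : I2 → I2 → S2 →L[ℂ] Completion D :=
  fun I J => ((eta J.1 / 4 : ℝ) : ℂ) • wW w I

lemma wW_ap (w : I2 → I2 → S2 →L[ℂ] Completion D) (I : I2) (F : S2) :
    wW w I F = ∑ K, w I K (hD i2 K F) := by
  simp only [wW, ContinuousLinearMap.sum_apply, ContinuousLinearMap.comp_apply]

lemma sum_eta (a : ℝ) (v : Completion D) :
    ∑ j, ((a * eta j : ℝ) : ℂ) • ((eta j / 4 : ℝ) : ℂ) • v = (a : ℂ) • v := by
  simp only [smul_smul, ← Finset.sum_smul, ← Complex.ofReal_mul, ← Complex.ofReal_sum]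
  congr 2
  simp [Fin.sum_univ_four, eta, o]
  ring

lemma wT_lw (w : I2 → I2 → S2 →L[ℂ] Completion D) (h k : V) (F : S2) : wT (lw w) h k F =
    ∑ m, ∑ n, ((eta m * h m * (eta n * k n) : ℝ) : ℂ) • wW w (m, n) F := by
  simp only [wT_ap, lw, ContinuousLinearMap.smul_apply, sum_eta]

lemma ww0_eq (w : I2 → I2 → S2 →L[ℂ] Completion D) (F : S2) : ww0 w F = w0 (lw w) F := by
  rw [w0_eq, wT_lw, ww0, Fintype.sum_prod_type]
  simp only [ContinuousLinearMap.sum_apply, ContinuousLinearMap.smul_apply,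
    ContinuousLinearMap.comp_apply, wW_ap, Finset.smul_sum, la]

variable {w : ℝ → ℝ → I2 → I2 → S2 →L[ℂ] Completion D}

lemma wT_symm {e : Bool} (hw : TP2 c.Q c.TT e w) (α β : ℝ) (h k : V) :
    wT (lw (w α β)) h k = wT (lw (w α β)) k h := by
  ext F
  rw [wT_lw, wT_lw, Finset.sum_comm]
  refine Finset.sum_congr rfl fun m _ => Finset.sum_congr rfl fun n _ => ?_
  simp only [wW_ap, hw.ind α β (n, m), Prod.swap, mul_comm]

lemma PP_tens {g u : V → ℝ} (hg : Tst g) (hu : Tst u) : PP g u = ST.tens (sr g) (sr u) :=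
  eq_tens fun x y => by
    rw [PP_ap hg hu, show sr g x = cx g x from congrFun (ev_sr hg) x,
      show sr u y = cx u y from congrFun (ev_sr hu) y]
    simp [cx]

lemma Tf_hk (h k : V) {f : Fn} (hf : IsTest f) (v : D) : c.Tf (hk h k f) v =
    ∑ m, ∑ n, ((eta m * h m * (eta n * k n) : ℝ) : ℂ) • c.T m n f v := Grp.T_hk c.hT h k hf v

/-- the `T` leg is later -/
lemma facA (hw : TP2 c.Q c.TT false w) (h k : V) {g u : V → ℝ} (hg : Tst g) (hu : Tst u)
    (hl : Late (tsupport g) (tsupport u)) (y : D) :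
    inner ℂ (wT (lw (w c.tau c.tau)) h k (PP g u)) (y : Completion D) =
      inner ℂ (c.Tf (hk h k (cx g)) c.Q.vac) (c.Wf (cx u) y) := by
  have e : ∀ m n, wW (w c.tau c.tau) (m, n) (PP g u) =
      ((c.Wf (cx u) (c.T m n (cx g) c.Q.vac) : D) : Completion D) := fun m n => by
    rw [wW_ap, Ctx.Wf, CK.Tf_eq, coe_sum', PP_tens hg hu]
    refine Finset.sum_congr rfl fun K _ => ?_
    rw [hD_i2, hw.fac _ _ (m, n) K (sr g) (hD i0 K (sr u)) _ (fun _ _ => rfl) (late_mono hl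
      (tsupp_sr hg).subset ((tsupport_hD _ _ _).trans (tsupp_sr hu).subset)), ev_hD, ev_sr hg,
      ev_sr hu]
    rfl
  simp only [wT_lw, e, sum_inner, inner_smul_left, Completion.inner_coe, Tf_hk h k (test_cx hg),
    CK.wf_herm (test_cx hu), bar_cx]

/-- the `W` leg is later -/
lemma facB (hw : TP2 c.Q c.TT false w) (h k : V) {g u : V → ℝ} (hg : Tst g) (hu : Tst u)
    (hl : Late (tsupport u) (tsupport g)) : wT (lw (w c.tau c.tau)) h k (PP g u) =
      ((c.Tf (hk h k (cx g)) (c.Wf (cx u) c.Q.vac) : D) : Completion D) := by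
  have e : ∀ m n, wW (w c.tau c.tau) (m, n) (PP g u) =
      ((c.T m n (cx g) (c.Wf (cx u) c.Q.vac) : D) : Completion D) := fun m n => by
    rw [wW_ap, Ctx.Wf, CK.Tf_eq, PP_tens hg hu, ← (CK.T_lin m n (test_cx hg)).mk'_apply, map_sum,
      coe_sum']
    refine Finset.sum_congr rfl fun K _ => ?_
    rw [hD_i2, hw.swap _ _ (m, n) K _ (ST.tens (hD i0 K (sr u)) (sr g)) fun x y => mul_comm _ _,
      hw.fac _ _ K (m, n) (hD i0 K (sr u)) (sr g) _ (fun _ _ => rfl) (late_mono hl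
      ((tsupport_hD _ _ _).trans (tsupp_sr hu).subset) (tsupp_sr hg).subset), ev_hD, ev_sr hg,
      ev_sr hu]
    rfl
  simp only [wT_lw, e, Tf_hk h k (test_cx hg), coe_sum', Completion.coe_smul]

lemma supp_hW {f : Fn} (hf : IsTest f) (m n : Ix) : tsupport (hW f m n) ⊆ tsupport f := by
  obtain ⟨f, rfl⟩ := hf
  rw [← ev_hD (m, n)]
  exact tsupport_hD _ _ _

/-- the pairing is small when `T(h,k)(g) Ω` is small -/
lemma err0 (hw : TP2 c.Q c.TT false w) {u : V → ℝ} (hu : Tst u) {f : Fn} (hf : IsTest f) :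
    ∃ C : ℝ, 0 ≤ C ∧ ∀ (h k : V) (g : V → ℝ), Tst g → (Late (tsupport g) (tsupport u) ∨
      (Late (tsupport u) (tsupport g) ∧ Sep (cx g) f)) →
      ‖inner ℂ (wT (lw (w c.tau c.tau)) h k (PP g u)) (c.Wv f)‖ ≤
        C * ‖c.Tf (hk h k (cx g)) c.Q.vac‖ := by
  refine ⟨‖c.Wf (cx u) (c.Wf f c.Q.vac)‖ + ‖c.Wf (bar f) (c.Wf (cx u) c.Q.vac)‖,
    by positivity, fun h k g hg hl => ?_⟩
  rcases hl with hl | ⟨hl, hs⟩
  · rw [Ctx.Wv, facA hw h k hg hu hl]
    refine (norm_inner_le_norm _ _).trans ?_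
    rw [mul_comm]
    gcongr
    exact le_add_of_nonneg_right (norm_nonneg _)
  · have t := CK.tsT_hk (test_cx hg) h k
    have e : c.Tf (hk h k (cx g)) (c.Wf f c.Q.vac) = c.Wf f (c.Tf (hk h k (cx g)) c.Q.vac) :=
      CK.Tf_com t (CK.tsT_hW hf) (fun m n k l x hx y hy =>
        hs x (tsupport_mul_subset_right hx) y (supp_hW hf k l hy)) _
    rw [Ctx.Wv, facB hw h k hg hu hl, Completion.inner_coe, CK.Tf_herm t, CK.barT_hk, bar_cx, e,
      ← Ap.bar_bar f, ← CK.wf_herm (Ap.test_bar hf), Ap.bar_bar]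
    refine (norm_inner_le_norm _ _).trans ?_
    gcongr
    exact le_add_of_nonneg_left (norm_nonneg _)

lemma Tf_smulf (h k : V) (a : ℂ) {f : Fn} (hf : IsTest f) (v : D) :
    c.Tf (hk h k fun x => a * f x) v = a • c.Tf (hk h k f) v := by
  have := fun m n => Grp.fld_sum (CK.T_fld c m n) {()} (fun _ => a) (fun _ => hf) v
  simp only [Finset.sum_singleton] at this
  simp only [Tf_hk h k hf, Tf_hk h k (Ap.sw_cmul a hf), this, Finset.smul_sum, smul_comm a]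

lemma nrm_lim (hg : All GRP c) {h k : V} {n m : ℕ} (hh : Wt h n) (hk' : Wt k m) {p : ℤ}
    (hp : p + 2 < n + m) {κ : P3 → ℝ} {φ : ℝ → ℝ} (h1 : Tst κ) (h2 : Tst φ) :
    Tendsto (fun L => ‖c.Tf (hk h k (cx (rp (gz p κ L) φ))) c.Q.vac‖) atTop (𝓝 0) := by
  obtain ⟨C, C0, hC⟩ := Pw.nrm_bd hg (τ := fun _ => 0) ⟨0, by simp⟩ h1 h2 h k
  refine Pw.Sm.lim (n := c.n0) ⟨C, fun L h3 => ?_⟩ fun _ _ => norm_nonneg _
  have hL := one_pos.trans_le h3
  have q1 : 1 ≤ Real.sqrt L := Real.one_le_sqrt.2 h3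
  have q0 := one_pos.trans_le q1
  have l0 := Real.log_nonneg h3
  have e : cx (rp (gz p κ L) φ) = fun x => ((Real.sqrt L ^ p : ℝ) : ℂ) * pr (kL κ L) φ x := by
    funext x
    simp only [cx, rp, gz, pr]
    push_cast
    ring
  have b := hC L _ _ h3 (hh L hL) (hk' L hL)
  rw [c.sh_zero, Ctx.Tv, Completion.norm_coe, abs_of_pos (by positivity), ← pow_add] at b
  simp only []
  rw [e, Tf_smulf _ _ _ (Far.isTest_dc (Far.dc_pr (Far.tst_kL h1 hL) h2)), norm_smul,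
    Complex.norm_real, Real.norm_of_nonneg (by positivity)]
  refine le_of_mul_le_mul_left (le_trans ?_ b) hL
  rw [← mul_assoc, ← mul_assoc]
  gcongr
  calc _ = Real.sqrt L ^ (p + 3) := by
        rw [zpow_add₀ q0.ne', zpow_ofNat, pow_succ, Real.sq_sqrt hL.le, mul_comm]
    _ ≤ Real.sqrt L ^ ((n + m : ℕ) : ℤ) := zpow_le_zpow_right₀ q1 (by push_cast; omega)
    _ = _ := zpow_natCast _ _

/-- the `T` leg is above the `W` leg -/
theorem errU (hg : All GRP c) (hw : TP2 c.Q c.TT false w) {h k : V} {n m : ℕ} (hh : Wt h n)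
    (hk' : Wt k m) {p : ℤ} (hp : p + 2 < n + m) {κ : P3 → ℝ} {φ : ℝ → ℝ} {u : V → ℝ} {f : Fn}
    (h1 : Tst κ) (h2 : Tst φ) (hu : Tst u) (hf : IsTest f) {b : ℝ} (s1 : tsupport φ ⊆ Ioi b)
    (s2 : tsupport u ⊆ {z | be z ≤ b}) :
    Tendsto (fun L => inner ℂ (wT (lw (w c.tau c.tau)) h k (PP (rp (gz p κ L) φ) u)) (c.Wv f))
      atTop (𝓝 0) := by
  obtain ⟨C, -, hC⟩ := err0 hw hu hf
  have t := (nrm_lim hg hh hk' hp h1 h2).const_mul C
  rw [mul_zero] at t
  refine squeeze_zero_norm' ?_ t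
  filter_upwards [eventually_gt_atTop 0] with L hL
  exact hC h k _ (tst_rp (tst_gz p h1 hL) h2) (Or.inl (late_be fun x hx y hy =>
    lt_of_le_of_lt (s2 hy) (s1 (supp_rp hx).2)))

/-- the `T` leg is far away -/
theorem errF (hg : All GRP c) (hw : TP2 c.Q c.TT false w) {h k : V} {n m : ℕ} (hh : Wt h n)
    (hk' : Wt k m) {p : ℤ} (hp : p + 2 < n + m) {κ : P3 → ℝ} {φ : ℝ → ℝ} {u : V → ℝ} {f : Fn}
    (h1 : Tst κ) (h2 : Tst φ) (hu : Tst u) {b : ℝ} (hf : In {z | be z < b} f)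
    (s0 : (0 : P3) ∉ tsupport κ) (s1 : tsupport φ ⊆ Ici b) :
    Tendsto (fun L => inner ℂ (wT (lw (w c.tau c.tau)) h k (PP (rp (gz p κ L) φ) u)) (c.Wv f))
      atTop (𝓝 0) := by
  obtain ⟨C, -, hC⟩ := err0 hw hu hf.1
  obtain ⟨R, hR⟩ := (hu.2.isCompact.union hf.2.1.isCompact).isBounded.exists_norm_le
  obtain ⟨r, hr⟩ := h2.2.isCompact.isBounded.exists_norm_le
  obtain ⟨κp, κm, A, a1, a2, -, -, a5, a6, a7⟩ := Far.split h1 s0 R r
  have t := ((nrm_lim hg hh hk' hp a1 h2).const_mul C).add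
    ((nrm_lim hg hh hk' hp a2 h2).const_mul C)
  rw [mul_zero, add_zero] at t
  refine squeeze_zero_norm' ?_ t
  filter_upwards [eventually_ge_atTop A] with L hA
  have hL := a6.trans_le hA
  obtain ⟨b1, b2⟩ := a7 L hA φ _ (fun t ht => abs_le.1 (hr t ht)) hR
  have e : rp (gz p κ L) φ = fun z => rp (gz p κp L) φ z + rp (gz p κm L) φ z := by
    funext z
    simp only [rp, gz, kL, a5]
    ring
  have u1 := tst_rp (tst_gz p a1 hL) h2
  have u2 := tst_rp (tst_gz p a2 hL) h2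
  rw [e, PP_add u1 u2 hu, map_add, inner_add_left]
  refine (norm_add_le _ _).trans (add_le_add (hC h k _ u1 (Or.inl ?_)) (hC h k _ u2 (Or.inr ⟨?_, ?_⟩)))
  · exact late_mono b1 supp_gz subset_union_left
  · exact late_mono b2 subset_union_left supp_gz
  · refine sep_of_late (late_be fun x hx y hy => ?_) ?_
    · rw [tsupp_cx] at hx
      exact lt_of_lt_of_le (hf.2.2 hy) (s1 (supp_rp hx).2)
    · rw [tsupp_cx]
      exact late_mono b2 subset_union_right supp_gz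

variable {κ : P3 → ℝ}

/-- the divergence of the test vector field -/
def DV (w : I2 → I2 → S2 →L[ℂ] Completion D) (i : Fin 2) (g : P3 → ℝ) (A B : ℝ → ℝ) (u : V → ℝ) :
    Completion D := dvT w va (PP (rp (xm i g) A) u) - dvT w va (PP (rp g A) (xv i u)) +
      dvT w (ex i) (PP (rp g B) u)

/-- **The thin part is a divergence up to fluxes.** -/
theorem thin_lim (hg : All GRP c) (hw : TP2 c.Q c.TT false w) (hκ : Cut κ) (i : Fin 2)
    {ρ A A1 B B1 : ℝ → ℝ} {u : V → ℝ} {f : Fn} {b b0 : ℝ} (hρ : Tst ρ) (hA : Tst A) (hA1 : Tst A1)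
    (hB : Tst B) (hB1 : Tst B1) (hu : Tst u) (hf : In {z | be z < b} f)
    (eA : deriv A = fun t => ρ t + A1 t) (eB : deriv B = fun t => A t + B1 t)
    (sA : tsupport A ⊆ Ici b) (sB : tsupport B ⊆ Ici b) (sA1 : tsupport A1 ⊆ Ioi b0)
    (sB1 : tsupport B1 ⊆ Ioi b0) (su : tsupport u ⊆ {z | be z ≤ b0}) :
    Tendsto (fun L => inner ℂ (DV (lw (w c.tau c.tau)) i (kL κ L) A B u) (c.Wv f) -
      inner ℂ (XX (lw (w c.tau c.tau)) i (kL κ L) ρ u) (c.Wv f)) atTop (𝓝 0) := by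
  have hu' := tst_xv i hu
  have su' : tsupport (xv i u) ⊆ {z | be z ≤ b0} := tsupport_mul_subset_right.trans su
  have k1 := hκ.1
  have t1 := errU hg hw wt_a wt_a (p := 0 + 1) (by norm_num) (tst_xm i k1) hA1 hu hf.1 sA1 su
  have t2 := errU hg hw wt_a wt_a (p := 0) (by norm_num) k1 hA1 hu' hf.1 sA1 su'
  have t3 := errU hg hw wt_a (wt_e i) (p := 0) (by norm_num) k1 hB1 hu hf.1 sB1 su
  have t4 := errF hg hw wt_b wt_a (p := -2 + 1) (by norm_num) (tst_xm i (tst_da k1)) hA hu hf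
    (cut_xm i (cut_fd hκ _)) sA
  have t5 := errF hg hw wt_b wt_a (p := -2) (by norm_num) (tst_da k1) hA hu' hf (cut_fd hκ _) sA
  have t6 := errF hg hw wt_b (wt_e i) (p := -2) (by norm_num) (tst_da k1) hB hu hf
    (cut_fd hκ _) sB
  have t7 := fun j => errF hg hw (wt_e j) wt_a (p := -1 + 1) (by norm_num)
    (tst_xm i (tst_dj j k1)) hA hu hf (cut_xm i (cut_fd hκ _)) sA
  have t8 := fun j => errF hg hw (wt_e j) wt_a (p := -1) (by norm_num) (tst_dj j k1) hA hu' hf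
    (cut_fd hκ _) sA
  have t9 := fun j => errF hg hw (wt_e j) (wt_e i) (p := -1) (by norm_num) (tst_dj j k1) hB hu hf
    (cut_fd hκ _) sB
  have t := (((((((((((t1.sub t2).add t3).add t4).sub t5).add t6).sub (t7 0)).sub (t7 1)).add
    (t8 0)).add (t8 1)).sub (t9 0)).sub (t9 1))
  have sy := wT_symm hw c.tau c.tau va (ex i)
  generalize lw (w c.tau c.tau) = w' at t sy ⊢
  simp only [sub_zero, add_zero] at t
  refine t.congr' ?_
  filter_upwards [eventually_gt_atTop 0] with L hL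
  have k2 := Far.tst_kL k1 hL
  rw [DV, XX, dvT_PP w' va (tst_xm i k2) hA hu, dvT_PP w' va k2 hA hu', dvT_PP w' (ex i) k2 hB hu,
    PP_rp_add' (tst_xm i k2) hρ hA1 hu eA, PP_rp_add' k2 hρ hA1 hu' eA,
    PP_rp_add' k2 hA hB1 hu eB, da_xm k2]
  simp only [dj_xm k2, PP_rp_add k2 (tst_xm i (tst_dj _ k2)) hA hu, ← gz_xm hL, ← gz_0,
    ← gz_da k1 hL, ← gz_dj k1, map_add, map_smul, Fin.sum_univ_two, inner_add_left, inner_sub_left,
    inner_smul_left, Complex.conj_ofReal, sy]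
  fin_cases i <;> simp [e2] <;> ring

/-- the part above the plane -/
lemma above (hpw : PWG c) (hw : TP2 c.Q c.TT false w) {ρ : ℝ → ℝ} {u : V → ℝ} {f : Fn}
    (i : Fin 2) (hκ : Cut κ) (hρ : Tst ρ) (hu : Tst u) {u0 : ℝ} (hf : In {z | be z < -u0} f)
    (s1 : tsupport ρ ⊆ Ioo (-u0) u0) (s2 : tsupport u ⊆ {z | u0 < be z}) :
    Tendsto (fun L => inner ℂ (XX (lw (w c.tau c.tau)) i (kL κ L) ρ u) (c.Wv f)) atTop
      (𝓝 ((∫ t, ρ t : ℝ) * inner ℂ (c.Wv (cx u)) (gen (Mi c.Q i) (c.Wv f)) -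
        (∫ t, t * ρ t : ℝ) * inner ℂ (c.Wv (cx u)) (gen (fun t => Ut c.Q (t • ex i)) (c.Wv f)) -
        (∫ t, ρ t : ℝ) * inner ℂ (c.Wv (cx (xv i u))) (gen (Pa c.Q) (c.Wv f)))) := by
  have hu' := tst_xv i hu
  have s3 : tsupport (xv i u) ⊆ {z | u0 < be z} := tsupport_mul_subset_right.trans s2
  have al : ∀ {O f}, In O f → Al c.Q O (c.Wf f) (c.Wf (bar f)) := fun h => by
    have := c.al_Tf (CK.inT_hW h)
    rwa [show (fun m n => bar (hW _ m n)) = _ from CK.barT_hW h.1] at this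
  have t1 := (hpw u0 _ _ _ _ κ ρ (fun _ => 0) 0 (al (in_cx hu s2)) (al hf) hκ hρ s1 (by simp)).2 i
  have t2 := (hpw u0 _ _ _ _ κ ρ (fun _ => 0) 0 (al (in_cx hu' s3)) (al hf) hκ hρ s1 (by simp)).1
  simp only [bar_cx, c.sh_zero] at t1 t2
  refine (t1.sub t2).congr' ?_
  filter_upwards [eventually_gt_atTop 0] with L hL
  have k1 := Far.tst_kL hκ.1 hL
  have l : ∀ (g : P3 → ℝ) (v : V → ℝ), tsupport v ⊆ {z | u0 < be z} →
      Late (tsupport v) (tsupport (rp g ρ)) := fun g v hv =>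
    late_be fun x hx y hy => (s1 (supp_rp hy).2).2.trans (hv hx)
  rw [XX, inner_sub_left, Ctx.Wv, facB hw va va (tst_rp (tst_xm i k1) hρ) hu (l _ _ s2),
    facB hw va va (tst_rp k1 hρ) hu' (l _ _ s3)]
  simp only [Completion.inner_coe, CK.Tf_herm (CK.tsT_hk (test_cx (tst_rp (tst_xm i k1) hρ)) _ _),
    CK.Tf_herm (CK.tsT_hk (test_cx (tst_rp k1 hρ)) _ _), CK.barT_hk, bar_cx]
  rfl

/-- the part below the plane -/
lemma below (hg : All GRP c) (hw : TP2 c.Q c.TT false w) {ρ : ℝ → ℝ} {u : V → ℝ} {f : Fn}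
    (i : Fin 2) (hκ : Tst κ) (hρ : Tst ρ) (hu : Tst u) (hf : IsTest f) {b : ℝ}
    (s1 : tsupport ρ ⊆ Ioi b) (s2 : tsupport u ⊆ {z | be z ≤ b}) :
    Tendsto (fun L => inner ℂ (XX (lw (w c.tau c.tau)) i (kL κ L) ρ u) (c.Wv f)) atTop (𝓝 0) := by
  have t1 := errU hg hw wt_a wt_a (p := 0 + 1) (by norm_num) (tst_xm i hκ) hρ hu hf s1 s2
  have t2 := errU hg hw wt_a wt_a (p := 0) (by norm_num) hκ hρ (tst_xv i hu) hf s1
    (tsupport_mul_subset_right.trans s2)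
  have t := t1.sub t2
  rw [sub_zero] at t
  refine t.congr' ?_
  filter_upwards [eventually_gt_atTop 0] with L hL
  rw [XX, inner_sub_left, ← gz_xm hL, ← gz_0]

end

end Vale.Agent.P352L.Cm
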