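import Vale.Agent.P352L.CM.A
import Vale.Agent.P352L.R.TWO

/-!
# P352L, row CONM, part B: overlaps of `W` with covariant families, boost weights (helper69)
-/

set_option linter.all false

open MeasureTheory Filter Topology Set
open scoped SchwartzMap ComplexConjugate ContDiff

namespace Vale.Agent.P352L.Cm

open Vale.Agent.P352X Vale.Agent.P352X.Conm
open Vale.Agent.P352 Vale.Agent.P352.GF Vale.Agent.P352.BW Vale.Agent.P352.H246
open Vale.Agent.P352.H496 Vale.Agent.P352.H755 Vale.Agent.P352.H15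
open UniformSpace (Completion)
open Complex (I)

noncomputable section

/-! ## the boosts -/

section boost

variable {L : ℝ} (hL : 0 < L)
include hL

lemma Bs_lor : IsLor (Bs L) := (P352X.Grp.lsc hL one_pos).1

lemma Bs_sim (z : V) : sim 1 (Bs L) 0 z = (Real.sqrt L)⁻¹ • scp L 1 z := by
  have hq : 0 < Real.sqrt L := Real.sqrt_pos.2 hL
  rw [← (P352X.Grp.lsc hL one_pos).2 z]
  funext n
  simp only [sim, Bs, Pi.zero_apply, zero_add, one_mul, mul_one, Pi.smul_apply, smul_eq_mul]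
  rw [← mul_assoc, inv_mul_cancel₀ hq.ne', one_mul]

lemma Bs_row (m : Ix) : Bs L m = (Real.sqrt L)⁻¹ • scp L 1 (bas m 1) := by
  rw [← Bs_sim hL, Conm.sim_bas]

lemma Bs_la (m : Ix) : ∑ n, Bs L m n * la n = (Real.sqrt L)⁻¹ * la m := by
  have : be (Bs L m) = (Real.sqrt L)⁻¹ * be (bas m 1) := by simp [Bs_row hL]
  rw [la, ← Conm.md_bas, md_va, ← this, be, GF.mdot]
  exact Finset.sum_congr rfl fun n _ => by rw [la]; ring

lemma Bs_ex (i : Fin 2) (m : Ix) : ∑ n, Bs L m n * (eta n * ex i n) = eta m * ex i m := by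
  have hq : 0 < Real.sqrt L := Real.sqrt_pos.2 hL
  have : tx (Bs L m) i = tx (bas m 1) i := by
    simp [Bs_row hL, inv_mul_cancel_left₀ hq.ne']
  rw [← Conm.md_bas, md_ex, ← this, ← md_ex, GF.mdot]
  exact Finset.sum_congr rfl fun n _ => by ring

lemma eig {ψ : V → ℂ} (hψ : ContDiff ℝ ∞ ψ) {a : ℂ}
    (h : ∀ v, ψ (scp L 1 v) = a * ψ v) {k : ℕ} (γ' : Fin k → Ix) :
    ∑ γ : Fin k → Ix, ((∏ i, Bs L (γ' i) (γ i) : ℝ) : ℂ) *
      iteratedFDeriv ℝ k ψ 0 (fun i => bas (γ i) 1) =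
      (((Real.sqrt L)⁻¹ : ℝ) : ℂ) ^ k * (a * iteratedFDeriv ℝ k ψ 0 fun i => bas (γ' i) 1) := by
  have e1 : iteratedFDeriv ℝ k ψ 0 (fun i => Bs L (γ' i)) = ∑ γ : Fin k → Ix,
      ((∏ i, Bs L (γ' i) (γ i) : ℝ) : ℂ) * iteratedFDeriv ℝ k ψ 0 (fun i => bas (γ i) 1) := by
    conv_lhs => rw [funext fun i => bas_dec (Bs L (γ' i))]
    rw [ContinuousMultilinearMap.map_sum]
    refine Finset.sum_congr rfl fun γ _ => ?_
    rw [ContinuousMultilinearMap.map_smul_univ, Complex.real_smul]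
  have e2 : ψ ∘ scpL L 1 = a • ψ := funext fun v => h v
  have e3 := ContinuousLinearMap.iteratedFDeriv_comp_right (scpL L 1) hψ 0 (i := k)
    (by exact_mod_cast le_top)
  rw [e2, iteratedFDeriv_const_smul_apply (hψ.of_le (by exact_mod_cast le_top)).contDiffAt,
    map_zero] at e3
  have e4 := congrArg (fun M => M fun i => bas (γ' i) 1) e3
  simp only [ContinuousMultilinearMap.smul_apply,
    ContinuousMultilinearMap.compContinuousLinearMap_apply, scpL_apply, smul_eq_mul] at e4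
  rw [← e1, e4]
  simp only [Bs_row hL]
  rw [ContinuousMultilinearMap.map_smul_univ, Complex.real_smul]
  simp

end boost

/-- tensors of weight `e` -/
def Wg {N : ℕ} (e : ℕ) (t : (Fin N → Ix) → ℂ) : Prop := ∀ L : ℝ, 0 < L → ∀ ν',
  ∑ ν, ((∏ i, Bs L (ν' i) (ν i) : ℝ) : ℂ) * t ν = (((Real.sqrt L)⁻¹ : ℝ) : ℂ) ^ e * t ν'

/-- the same for two indices -/
def W2 (e : ℕ) (α : I2 → ℝ) : Prop := ∀ L : ℝ, 0 < L → ∀ k l,
  ∑ r, ∑ s, Bs L k r * Bs L l s * α (r, s) = (Real.sqrt L)⁻¹ ^ e * α (k, l)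

/-- the same for `k + 1` indices -/
def Wb {k : ℕ} (e : ℕ) (β : Ix × (Fin k → Ix) → ℂ) : Prop := ∀ L : ℝ, 0 < L → ∀ x',
  ∑ x : Ix × (Fin k → Ix), ((Bs L x'.1 x.1 * ∏ j, Bs L (x'.2 j) (x.2 j) : ℝ) : ℂ) * β x =
    (((Real.sqrt L)⁻¹ : ℝ) : ℂ) ^ e * β x'

/-- `a_m a_n` -/
def ll (I : I2) : ℝ := la I.1 * la I.2

lemma w2_gm : W2 0 gm := fun L hL k l => by
  rw [pow_zero, one_mul, gm, ← (Bs_lor hL).1 k l, GF.mdot]
  refine Finset.sum_congr rfl fun r _ => ?_
  simp [gm, bas]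
  ring

lemma w2_ll : W2 2 ll := fun L hL k l => by
  rw [ll, pow_two, mul_mul_mul_comm, ← Bs_la hL, ← Bs_la hL, Finset.sum_mul_sum]
  exact Finset.sum_congr rfl fun r _ => Finset.sum_congr rfl fun s _ => by rw [ll]; ring

/-- tensors with `k + 3` indices from their components -/
def un3 {M : Type*} {k : ℕ} (F : I2 → Ix × (Fin k → Ix) → M) (ν : Fin (k + 3) → Ix) : M :=
  F (ν (Fin.succ 0), ν (Fin.succ (Fin.succ 0))) (ν 0, fun i => ν i.succ.succ.succ)

lemma un3_ix3 {M : Type*} {k : ℕ} (F : I2 → Ix × (Fin k → Ix) → M) (J : I2)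
    (x : Ix × (Fin k → Ix)) : un3 F (ix3 x.1 J x.2) = F J x := rfl

lemma wg_un3 {k e e' : ℕ} {α : I2 → ℝ} {β : Ix × (Fin k → Ix) → ℂ} (hα : W2 e α) (hβ : Wb e' β) :
    Wg (e + e') (un3 fun J x => (α J : ℂ) * β x) := fun L hL ν' => by
  obtain ⟨n, a, b, γ, rfl⟩ : ∃ n a b γ, ν' = ix3 n (a, b) γ :=
    ⟨ν' 0, ν' (Fin.succ 0), ν' (Fin.succ (Fin.succ 0)), fun i => ν' i.succ.succ.succ, funext fun i =>
      Fin.cases rfl (fun i => Fin.cases rfl (fun i => Fin.cases rfl (fun _ => rfl) i) i) i⟩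
  have h1 := congrArg (fun t : ℝ => (t : ℂ)) (hα L hL a b)
  simp only [sum_ix3, prod_ix3, un3_ix3, un3_ix3 _ _ (n, γ)]
  calc _ = (∑ r, ∑ s, ((Bs L a r * Bs L b s * α (r, s) : ℝ) : ℂ)) * ∑ x : Ix × (Fin k → Ix),
        ((Bs L n x.1 * ∏ j, Bs L (γ j) (x.2 j) : ℝ) : ℂ) * β x := by
        simp only [Finset.sum_mul]
        simp only [Finset.mul_sum]
        refine Finset.sum_congr rfl fun r _ => Finset.sum_congr rfl fun s _ =>
          Finset.sum_congr rfl fun x _ => ?_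
        push_cast
        ring
    _ = _ := by
        rw [hβ L hL (n, γ)]
        simp only [← Complex.ofReal_sum, hα L hL a b]
        push_cast
        ring

/-! ## the symbol of `W` -/

/-- the symbol of `hW` -/
def sW (r s : Ix) (p : V) : ℝ := -(be p ^ 2 * gm (r, s) + 3 * mu p * ll (r, s))

lemma ft_hW {f : Fn} (hf : IsTest f) (r s : Ix) (p : V) : ft (hW f r s) p = sW r s p * ft f p := by
  have t := Ap.test_dv va hf
  unfold hW
  rw [ft_add (Ap.sw_cmul _ (Ap.test_dv va t)) (Ap.sw_cmul _ (Ap.test_box hf)), ft_mul, ft_mul,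
    ft_dv t, ft_dv hf, P352X.ft_box hf, md_va', sW, ll]
  push_cast
  linear_combination (gm (r, s) * be p ^ 2 * ft f p) * Complex.I_sq

lemma sW_cov {L : ℝ} (hL : 0 < L) (k l : Ix) (p : V) :
    ∑ r, ∑ s, Bs L k r * Bs L l s * sW r s (sim 1 (Bs L) 0 p) = (Real.sqrt L)⁻¹ ^ 2 * sW k l p := by
  have e : be (sim 1 (Bs L) 0 p) = (Real.sqrt L)⁻¹ * be p := by simp [Bs_sim hL]
  have a := w2_gm L hL k l
  have b := w2_ll L hL k l
  simp only [sW, mu_lor _ (Bs_lor hL), e, mul_neg, mul_add, Finset.sum_neg_distrib,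
    Finset.sum_add_distrib, mul_left_comm (_ * Bs L l _), ← Finset.mul_sum, a, b]
  ring

/-- the contraction of an overlap with the symbol -/
def qW {N : ℕ} (π : Ix → Ix → (Fin N → Ix) → MvPolynomial Ix ℂ) (μ : Fin N → Ix) (p : V) : ℂ :=
  ∑ r, ∑ s, (sW r s p : ℂ) * evp (π r s μ) p

section weight

variable {N : ℕ} {d : ℤ} {π : Ix → Ix → (Fin N → Ix) → MvPolynomial Ix ℂ} (h : Pi6 N d π)
include h

lemma qW_dvd (μ : Fin N → Ix) : ∃ s : V → ℂ, Continuous s ∧ ∀ p, qW π μ p = mu p * s p := by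
  have hd : mup ∣ ∑ r, MvPolynomial.C (eta r : ℂ) * π r r μ := by
    refine Nul.dvd_of _ ?_
    have e : (∑ r, MvPolynomial.C (eta r : ℂ) * π r r μ) * MvPolynomial.X 0 =
        ∑ r, MvPolynomial.C (eta r : ℂ) *
          (π r r μ * MvPolynomial.X 0 - π 0 r μ * MvPolynomial.X r) := by
      have := h.con 0 μ
      simp only [mul_sub, Finset.sum_sub_distrib, Finset.sum_mul, mul_assoc]
      rw [eq_comm, sub_eq_self, ← this]
      exact Finset.sum_congr rfl fun r _ => by rw [h.sym 0 r]; ring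
    rw [e]
    exact Finset.dvd_sum fun r _ => (h.dvd r r 0 μ).mul_left _
  obtain ⟨σ, hσ⟩ := hd
  have c := evp_cont
  refine ⟨fun p => -((be p : ℂ) ^ 2 * evp σ p + 3 * ∑ r, ∑ s, (ll (r, s) : ℂ) * evp (π r s μ) p),
    by fun_prop, fun p => ?_⟩
  have e1 : ∑ r, (eta r : ℂ) * evp (π r r μ) p = mu p * evp σ p := by
    have := congrArg (fun q => evp q p) hσ
    simp only [← evp_mup]
    simpa only [evp, map_sum, map_mul, MvPolynomial.eval_C] using this
  have e2 : ∀ r, ∑ s, (gm (r, s) : ℂ) * evp (π r s μ) p = eta r * evp (π r r μ) p := fun r => by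
    simp [gm, bas, apply_ite Complex.ofReal]
  simp only [qW, sW, Complex.ofReal_neg, Complex.ofReal_add, Complex.ofReal_mul, neg_mul, add_mul,
    mul_assoc, Finset.sum_neg_distrib, Finset.sum_add_distrib, ← Finset.mul_sum, e2, e1]
  push_cast
  ring

lemma qW_hom (μ : Fin N → Ix) (t : ℝ) (p : V) :
    qW π μ (t • p) = (t : ℂ) ^ (d.toNat + 2) * qW π μ p := by
  simp only [qW, evp_hom (h.hom _ _ _).1, Finset.mul_sum, sW, mu_smul, be_smul]
  exact Finset.sum_congr rfl fun r _ => Finset.sum_congr rfl fun s _ => by push_cast; ring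

lemma qW_cov (μ : Fin N → Ix) {L : ℝ} (hL : 0 < L) (p : V) : qW π μ (sim 1 (Bs L) 0 p) =
    (((Real.sqrt L)⁻¹ : ℝ) : ℂ) ^ 2 * ∑ ν, ((∏ i, Bs L (ν i) (μ i) : ℝ) : ℂ) * qW π ν p := by
  simp only [qW, h.cov _ _ _ _ p (Bs_lor hL)]
  calc _ = ∑ k, ∑ l, ((∑ r, ∑ s, Bs L k r * Bs L l s * sW r s (sim 1 (Bs L) 0 p) : ℝ) : ℂ) *
        ∑ ν : Fin N → Ix, ((∏ i, Bs L (ν i) (μ i) : ℝ) : ℂ) * evp (π k l ν) p := by
        simp only [Complex.ofReal_sum, Finset.sum_mul]
        simp only [Finset.mul_sum]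
        rw [Grp.sum4]
        refine Finset.sum_congr rfl fun k _ => Finset.sum_congr rfl fun l _ =>
          Finset.sum_congr rfl fun r _ => Finset.sum_congr rfl fun s _ =>
          Finset.sum_congr rfl fun ν _ => ?_
        push_cast
        ring
    _ = _ := by
        simp only [sW_cov hL, Finset.mul_sum]
        rw [Finset.sum_comm (γ := Fin N → Ix)]
        refine Finset.sum_congr rfl fun k _ => ?_
        rw [Finset.sum_comm (γ := Fin N → Ix)]
        exact Finset.sum_congr rfl fun l _ => Finset.sum_congr rfl fun ν _ => by push_cast; ring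

/-- **Boost weights.** -/
theorem weight {e : ℕ} {t : (Fin N → Ix) → ℂ} (ht : Wg e t) (he : d < e + 2) (p : V) :
    ∑ ν, t ν * qW π ν p = 0 := by
  by_cases h5 : d < 0
  · simp [qW, (h.hom _ _ _).2 h5, evp]
  obtain ⟨m, hm⟩ : ∃ m, e + 2 = d.toNat + (m + 1) := ⟨e + 1 - d.toNat, by omega⟩
  set P : V → ℂ := fun p => ∑ ν, t ν * qW π ν p with hP
  choose s hs1 hs2 using qW_dvd h
  set S : V → ℂ := fun p => ∑ ν, t ν * s ν p with hS
  have cS : Continuous S := by fun_prop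
  have e1 : ∀ p, P p = mu p * S p := fun p => by
    simp only [hP, hS, hs2, Finset.mul_sum]
    exact Finset.sum_congr rfl fun x _ => by ring
  have e2 : ∀ (r : ℝ) p, P (r • p) = (r : ℂ) ^ (d.toNat + 2) * P p := fun r p => by
    simp only [hP, qW_hom h, Finset.mul_sum]
    exact Finset.sum_congr rfl fun x _ => by ring
  have e3 : ∀ L : ℝ, 0 < L →
      P (sim 1 (Bs L) 0 p) = (((Real.sqrt L)⁻¹ : ℝ) : ℂ) ^ (e + 2) * P p := fun L hL => by
    simp only [hP, qW_cov h _ hL, Finset.mul_sum]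
    rw [Finset.sum_comm]
    refine Finset.sum_congr rfl fun ν _ => ?_
    rw [pow_add, mul_right_comm, ← mul_assoc, mul_right_comm _ (qW π ν p), mul_right_comm _ (t ν),
      mul_right_comm _ _ (t ν), ← ht L hL ν, Finset.sum_mul, Finset.sum_mul]
    exact Finset.sum_congr rfl fun x _ => by ring
  have e4 : ∀ r : ℝ, 0 < r → P p = (r : ℂ) ^ (m + 1) * (mu p * S (scp (r ^ 2) 1 p)) := by
    intro r hr
    have hL : 0 < r ^ 2 := by positivity
    have b1 : scp (r ^ 2) 1 p = r • sim 1 (Bs (r ^ 2)) 0 p := by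
      rw [Bs_sim hL, Real.sqrt_sq hr.le, smul_smul, mul_inv_cancel₀ hr.ne', one_smul]
    have b2 := e1 (scp (r ^ 2) 1 p)
    rw [b1, e2, e3 _ hL, mu_smul, mu_lor _ (Bs_lor hL), Real.sqrt_sq hr.le, ← b1, hm] at b2
    have hr' : (r : ℂ) ≠ 0 := Complex.ofReal_ne_zero.2 hr.ne'
    push_cast at b2
    have k : (r : ℂ)⁻¹ ^ (d.toNat + (m + 1)) * r ^ (d.toNat + (m + 1)) = 1 := by
      rw [← mul_pow, inv_mul_cancel₀ hr', one_pow]
    refine mul_left_cancel₀ (pow_ne_zero (d.toNat + 2) hr') ?_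
    linear_combination (r : ℂ) ^ (d.toNat + (m + 1)) * b2 - (r : ℂ) ^ (d.toNat + 2) * P p * k
  have t1 : Tendsto (fun r : ℝ => (r : ℂ) ^ (m + 1) * (mu p * S (scp (r ^ 2) 1 p)))
      (𝓝[>] 0) (𝓝 0) := by
    have c1 : Continuous fun r : ℝ => (r : ℂ) ^ (m + 1) * (mu p * S (scp (r ^ 2) 1 p)) := by
      have : Continuous fun r : ℝ => scp (r ^ 2) 1 p := by
        unfold scp
        fun_prop
      fun_prop
    have := (c1.tendsto 0).mono_left (nhdsWithin_le_nhds (s := Ioi 0))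
    rwa [Complex.ofReal_zero, zero_pow (by omega), zero_mul] at this
  exact tendsto_nhds_unique (l := 𝓝[>] (0 : ℝ))
    (tendsto_const_nhds.congr' (eventually_nhdsWithin_of_forall e4)) t1

end weight

/-! ## overlaps -/

lemma int_lg (j : ℕ) (π : MvPolynomial Ix ℂ) {f : Fn} (hf : IsTest f) :
    Integrable (fun p => (Real.log (mu p) : ℂ) ^ j * evp π p * conj (ft f p))
      (volume.restrict Fc) := by
  have := Two.int_log (test_mul (Api4.temperate_evp π (ContinuousLinearMap.id ℝ V))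
    (Ap.test_bar (test_ft hf))) (r := fun p => (Real.log (mu p) : ℂ) ^ j) (by fun_prop)
    (C := 2 ^ j) (a := 0) (n := j) fun p _ => by
      rw [norm_pow, Complex.norm_real, ← mul_pow, zero_add, Two.lm, abs_div, abs_two,
        Real.norm_eq_abs]
      gcongr
      linarith
  exact this.congr (.of_forall fun p => by simp [bar, mul_assoc])

variable {D : Type*} [NormedAddCommGroup D] [InnerProductSpace ℂ D] {c : Ctx D}

/-- the overlap of `W` with a multiplet -/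
structure Ov (c : Ctx D) {N : ℕ} (d : ℤ) (O : (Fin N → Ix) → Sch →L[ℂ] Completion D)
    (q : (Fin N → Ix) → V → ℂ) : Prop where
  rep : ∀ μ (f' f : Sch), inner ℂ (c.Wv (ev f')) (O μ f) =
    ∫ p in Fc, q μ p * conj (ft (ev f') p) * ft (ev f) p
  int : ∀ μ (f' : Sch), Integrable (fun p => q μ p * conj (ft (ev f') p)) (volume.restrict Fc)
  ann : ∀ (e : ℕ) t, Wg e t → d < e + 2 → ∀ p, ∑ ν, t ν * q ν p = 0

lemma Wv_sum (f : Sch) : c.Wv (ev f) =
    ∑ r, ∑ s, ((c.T r s (ev (hD i0 (r, s) f)) c.Q.vac : D) : Completion D) := by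
  simp only [Ctx.Wv, Ctx.Wf, Ctx.Tf, coe_sum', ev_hD]

theorem ex_ov (hp : POLY c) {N J : ℕ} {d : ℤ} {O : ℝ → (Fin N → Ix) → Sch →L[ℂ] Completion D}
    (hO : CovL c.Q N d J O) (he : Even (d - N)) (τ : ℝ) : ∃ q, Ov c d (O τ) q := by
  obtain ⟨n, π, h1, h2⟩ := hp N d J O hO he τ
  have i1 : ∀ r s μ (f : Sch), Integrable (fun p => (∑ j ∈ Finset.range n,
      (Real.log (mu p) : ℂ) ^ j * evp (π j r s μ) p) * conj (ft (ev (hD i0 (r, s) f)) p))
      (volume.restrict Fc) := fun r s μ f => by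
    simp only [Finset.sum_mul]
    exact integrable_finset_sum _ fun j _ => int_lg j _ ⟨_, rfl⟩
  have e : ∀ μ (f : Sch) p, (∑ j ∈ Finset.range n, (Real.log (mu p) : ℂ) ^ j * qW (π j) μ p) *
      conj (ft (ev f) p) = ∑ r, ∑ s, (∑ j ∈ Finset.range n, (Real.log (mu p) : ℂ) ^ j *
        evp (π j r s μ) p) * conj (ft (ev (hD i0 (r, s) f)) p) := fun μ f p => by
    simp only [ev_hD, ft_hW ⟨f, rfl⟩, map_mul, Complex.conj_ofReal, qW, Finset.mul_sum,
      Finset.sum_mul]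
    rw [Finset.sum_comm]
    refine Finset.sum_congr rfl fun r _ => ?_
    rw [Finset.sum_comm]
    exact Finset.sum_congr rfl fun s _ => Finset.sum_congr rfl fun j _ => by ring
  refine ⟨fun μ p => ∑ j ∈ Finset.range n, (Real.log (mu p) : ℂ) ^ j * qW (π j) μ p,
    fun μ f' f => ?_, fun μ f' => ?_, fun k t ht hk p => ?_⟩
  · simp only [e, Wv_sum, sum_inner, h2, ← mul_assoc]
    rw [Finset.sum_congr rfl fun r _ =>
      (integral_finset_sum _ fun s _ => int_ft' (i1 r s μ f') f).symm,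
      ← integral_finset_sum _ fun r _ => integrable_finset_sum _ fun s _ => int_ft' (i1 r s μ f') f]
    simp only [Finset.sum_mul (R := ℂ) (ι := Ix)]
  · simp only [e]
    exact integrable_finset_sum _ fun r _ => integrable_finset_sum _ fun s _ => i1 r s μ f'
  · simp only [Finset.mul_sum]
    rw [Finset.sum_comm]
    refine Finset.sum_eq_zero fun j _ => ?_
    simp only [mul_left_comm (t _), ← Finset.mul_sum, weight (h1 j) ht hk, mul_zero]

variable {N : ℕ} {d : ℤ} {O : (Fin N → Ix) → Sch →L[ℂ] Completion D} {q : (Fin N → Ix) → V → ℂ}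

/-- the overlap is bounded by the `L¹` norm -/
lemma Ov.bd (h : Ov c d O q) (f' : Sch) : ∃ C : ℝ, 0 ≤ C ∧ ∀ μ (f : Sch),
    ‖inner ℂ (c.Wv (ev f')) (O μ f)‖ ≤ C * ∫ z, ‖f z‖ := by
  refine ⟨∑ μ, ∫ p in Fc, ‖q μ p * conj (ft (ev f') p)‖,
    Finset.sum_nonneg fun μ _ => integral_nonneg fun _ => norm_nonneg _, fun μ f => ?_⟩
  rw [h.rep]
  have h0 : 0 ≤ ∫ z, ‖f z‖ := integral_nonneg fun _ => norm_nonneg _
  refine (norm_integral_le_of_norm_le ((h.int μ f').norm.mul_const (∫ z, ‖f z‖))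
    (ae_of_all _ fun p => ?_)).trans ?_
  · rw [norm_mul]
    gcongr
    exact FT.norm_gft_le (B := mdL) _ p
  · rw [integral_mul_const]
    gcongr
    exact Finset.single_le_sum (f := fun μ => ∫ p in Fc, ‖q μ p * conj (ft (ev f') p)‖)
      (fun μ _ => integral_nonneg fun _ => norm_nonneg _) (Finset.mem_univ μ)

lemma Ov.bd' (h : Ov c d O q) (f : Sch) (a : (Fin N → Ix) → ℝ) : ∃ C : ℝ, 0 ≤ C ∧
    ∀ (t : (Fin N → Ix) → Sch) (F : V → ℝ), (∀ ν z, t ν z = ((a ν * F z : ℝ) : ℂ)) →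
      ‖inner ℂ (c.Wv (ev f)) (∑ ν, O ν (t ν))‖ ≤ C * ∫ z, |F z| := by
  obtain ⟨C, h0, hC⟩ := h.bd f
  refine ⟨∑ ν, C * |a ν|, by positivity, fun t F ht => ?_⟩
  simp only [inner_sum, Finset.sum_mul]
  refine (norm_sum_le _ _).trans (Finset.sum_le_sum fun x _ => (hC _ _).trans (le_of_eq ?_))
  simp only [ht, Complex.norm_real, Real.norm_eq_abs, abs_mul, integral_const_mul, mul_assoc]

lemma Ov.zero (h : Ov c d O q) (f : Sch) {e : ℕ} (he : d < e + 2) (t : (Fin N → Ix) → Sch)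
    (ht : ∀ z, Wg e fun ν => t ν z) : inner ℂ (c.Wv (ev f)) (∑ ν, O ν (t ν)) = 0 := by
  simp only [inner_sum, h.rep]
  rw [← integral_finset_sum _ fun ν _ => int_ft' (h.int _ f) _]
  refine integral_eq_zero_of_ae (ae_of_all _ fun p => ?_)
  have := h.ann e (fun ν => ft (ev (t ν)) p) (fun L hL x' => by
    simp only [← ft_mul]
    have tt : ∀ (a : ℂ) (g : Sch), IsTest fun z => a * ev g z := fun a g => ⟨a • g, rfl⟩
    rw [← ft_sum _ fun x _ => tt _ (t x)]
    congr 1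
    exact funext fun z => ht z L hL x') he p
  have e := congrArg (fun y => conj (ft (ev f) p) * y) this
  simp only [mul_zero, Finset.mul_sum] at e
  simp only [Pi.zero_apply]
  rw [← e]
  exact Finset.sum_congr rfl fun x _ => by ring

/-- the two point function of `W` is bounded by the `L¹` norm -/
lemma w_bd (hp : POLY c) {f : Fn} (hf : IsTest f) : ∃ C : ℝ, 0 ≤ C ∧
    ∀ g : V → ℝ, Tst g → ‖inner ℂ (c.Wv (cx g)) (c.Wv f)‖ ≤ C * ∫ z, |g z| := by
  obtain ⟨f, rfl⟩ := hf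
  have st := Two.st_fam (c := c.bs) c.hF
  have hO : CovL c.Q 2 ((4 : ℤ) : ℝ) c.n0 (Two.LT c.hF) := ⟨fun τ μ s L a f g hs hL e => ⟨0, by
    simpa only [Ug_apply _ hs hL, zero_smul, add_zero, Int.cast_ofNat] using!
      st.mul.cov τ μ s L a f g hs hL e⟩, fun μ f => (st.mul.pol μ f).congr fun τ => by
        rw [show inner ℂ (om c.Q) _ = 0 from st.perp τ μ f, zero_smul, sub_zero]⟩
  obtain ⟨q, hq⟩ := ex_ov hp hO (by decide) c.tau
  choose C h0 hC using fun I : I2 => hq.bd (hD i0 I f)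
  refine ⟨∑ r, ∑ s, C (r, s), Finset.sum_nonneg fun _ _ => Finset.sum_nonneg fun _ _ => h0 _,
    fun g h => ?_⟩
  have e : ∫ z, ‖sr g z‖ = ∫ z, |g z| := by
    congr 1
    funext z
    rw [show sr g z = cx g z from congrFun (ev_sr h) z]
    simp [cx]
  rw [norm_inner_symm, ← ev_sr h, Wv_sum (sr g), ← e]
  simp only [inner_sum, Finset.sum_mul]
  refine (norm_sum_le _ _).trans (Finset.sum_le_sum fun r _ =>
    (norm_sum_le _ _).trans (Finset.sum_le_sum fun s _ => le_of_eq_of_le ?_ (hC _ ![r, s] _)))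
  refine congrArg _ ((hq.rep ![r, s] f (hD i0 (r, s) (sr g))).trans ?_)
  rw [hq.rep]
  simp only [ev_hD, ft_hW ⟨_, rfl⟩, map_mul, Complex.conj_ofReal]
  exact integral_congr_ae (.of_forall fun p => by ring)

end

end Vale.Agent.P352L.Cm
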