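import Vale.Agent.P352L.CM.B

/-!
# P352L, row CONM, part C: the contact terms (helper69)
-/

set_option linter.all false

open MeasureTheory Filter Topology Set
open scoped SchwartzMap ComplexConjugate ContDiff

namespace Vale.Agent.P352L.Cm

open Vale.Agent.P352X Vale.Agent.P352X.Conm
open Vale.Agent.P352 Vale.Agent.P352.GF Vale.Agent.P352.BW Vale.Agent.P352.H246
open Vale.Agent.P352.H496 Vale.Agent.P352.H755 Vale.Agent.P352.H15
open UniformSpace (Completion)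
open Complex (I)

noncomputable section

/-! ## derivatives in the second slot -/

lemma bD_null {E : Type*} [NormedAddCommGroup E] [NormedSpace ℝ E] (e : V →L[ℝ] E) :
    bD e = (2 : ℂ) • (dD (e va) * dD (e vb)) - ∑ j, dD (e (ex j)) * dD (e (ex j)) := by
  simp only [dD_sy, bD_sy, ← map_mul, ← map_smul, ← map_sum, ← map_sub]
  refine sy_ext e fun p => ?_
  simp only [map_sum, map_sub, map_smul, map_mul, MvPolynomial.aeval_X, smul_eq_mul]
  simp [Fin.sum_univ_four, va, vb, ex, tv, pt, e2, eta, o]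
  ring

/-- directional derivatives of real functions -/
def fd (v : V) (u : V → ℝ) : V → ℝ := fun z => fderiv ℝ u z v

lemma tst_fd' (v : V) {u : V → ℝ} (h : Tst u) : Tst (fd v u) := tst_fd h v

lemma supp_fd (v : V) (u : V → ℝ) : tsupport (fd v u) ⊆ tsupport u :=
  tsupport_fderiv_apply_subset ℝ v

lemma dD_PP {g u : V → ℝ} (hg : Tst g) (hu : Tst u) (v : V) :
    dD (i2 v) (PP g u) = PP g (fd v u) := by
  rw [PP_tens hg hu, PP_tens hg (tst_fd' v hu)]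
  refine (itw_tensR (e' := i0) (fun _ => rfl) (sr g) v (sr u)).trans (congrArg (ST.tens _) ?_)
  ext z
  have := Complex.ofRealCLM.hasFDerivAt.comp z (tst_diff hu z).hasFDerivAt
  rw [dD_eq, show ⇑(sr u) = _ from ev_sr hu, show sr (fd v u) z = _ from
    congrFun (ev_sr (tst_fd' v hu)) z]
  erw [this.fderiv]
  rfl

lemma fd_xv (i : Fin 2) {u : V → ℝ} (hu : Tst u) (v : V) :
    fd v (xv i u) = fun z => tx v i * u z + xv i (fd v u) z := by
  funext z
  have d1 : HasFDerivAt (fun v : V => tx v i)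
      ((ContinuousLinearMap.proj (R := ℝ) (φ := fun _ : Fin 2 => ℝ) i).comp txL) z :=
    ((ContinuousLinearMap.proj (R := ℝ) (φ := fun _ : Fin 2 => ℝ) i).comp txL).hasFDerivAt
  have d2 := d1.mul (tst_diff hu z).hasFDerivAt
  unfold fd
  erw [d2.fderiv]
  simp [xv]
  ring

lemma fd_rp {f : P3 → ℝ} {φ : ℝ → ℝ} (hf : Tst f) (hφ : Tst φ) (v z : V) : fd v (rp f φ) z =
    fderiv ℝ f (pl z) (pl v) * φ (be z) + be v * (f (pl z) * deriv φ (be z)) := by
  have d := ((tst_diff hf _).hasFDerivAt.comp z plL.hasFDerivAt).mul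
    ((tst_diff hφ _).hasFDerivAt.comp z beL.hasFDerivAt)
  unfold fd
  erw [d.fderiv]
  simp [fderiv_eq_smul_deriv]
  ring

lemma fd_a {f : P3 → ℝ} {φ : ℝ → ℝ} (hf : Tst f) (hφ : Tst φ) : fd va (rp f φ) = rp (da f) φ :=
  funext fun z => by simp [fd_rp hf hφ, Ap.pl_va, rp, da]

lemma fd_b {f : P3 → ℝ} {φ : ℝ → ℝ} (hf : Tst f) (hφ : Tst φ) :
    fd vb (rp f φ) = rp f (deriv φ) := funext fun z => by simp [fd_rp hf hφ, Ap.pl_vb, rp]

lemma fd_e {f : P3 → ℝ} {φ : ℝ → ℝ} (hf : Tst f) (hφ : Tst φ) (j : Fin 2) :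
    fd (ex j) (rp f φ) = rp (dj j f) φ := funext fun z => by simp [fd_rp hf hφ, pl, rp, dj]

/-- the correction from the commutator with the weight -/
def Gd (g : P3 → ℝ) (A : ℝ → ℝ) (u : V → ℝ) (n : Ix) : S2 := (la n : ℂ) • PP (rp g A) u

section

variable {i : Fin 2} {g : P3 → ℝ} {A B : ℝ → ℝ} {u : V → ℝ} (hg : Tst g) (hA : Tst A)
  (hB : Tst B) (hu : Tst u)
include hg hA hu

lemma dD_Gd (v : V) (n : Ix) : dD (i2 v) (Gd g A u n) = Gd g A (fd v u) n := by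
  rw [Gd, map_smul, dD_PP (tst_rp hg hA) hu, Gd]

lemma Gd_ap (n : Ix) (z : V × V) : Gd g A u n z = ((la n * (rp g A z.1 * u z.2) : ℝ) : ℂ) := by
  rw [Gd, SchwartzMap.smul_apply, PP_ap (tst_rp hg hA) hu, smul_eq_mul, ← Complex.ofReal_mul]

lemma Gd_cs (n : Ix) : HasCompactSupport (Gd g A u n) :=
  (PP_cs (tst_rp hg hA) hu).smul_left (f := fun _ => (la n : ℂ))

lemma dg_Gd (h1 : ∀ z ∈ tsupport u, ∀ᶠ y in 𝓝 (pl z), g y = 1) {k : ℕ} (x : Ix × (Fin k → Ix))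
    (z : V) : dg x.2 (Gd g A u x.1) z =
      u z * la x.1 * iteratedFDeriv ℝ k (p2 A z) 0 fun j => bas (x.2 j) 1 := by
  have e : (fun v : V => Gd g A u x.1 (z + v, z)) =ᶠ[𝓝 0] (u z * la x.1 : ℂ) • p2 A z := by
    by_cases hz : z ∈ tsupport u
    · have t : Tendsto (fun v : V => pl (z + v)) (𝓝 0) (𝓝 (pl z)) :=
        Continuous.tendsto' (by fun_prop) _ _ (by simp)
      filter_upwards [t.eventually (h1 z hz)] with v hv
      simp only [Gd_ap hg hA hu, rp, hv, p2, Pi.smul_apply, smul_eq_mul, be_add]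
      push_cast
      ring
    · refine Eventually.of_forall fun v => ?_
      simp [Gd_ap hg hA hu, image_eq_zero_of_notMem_tsupport hz]
  rw [dg_ap, (e.iteratedFDeriv ℝ k).eq_of_nhds, iteratedFDeriv_const_smul_apply
    ((sm_p2 hA z).of_le (by exact_mod_cast le_top)).contDiffAt]
  rfl

lemma wb_Gd (h1 : ∀ z ∈ tsupport u, ∀ᶠ y in 𝓝 (pl z), g y = 1) (k : ℕ) (z : V) :
    Wb (k := k) (k + 1) fun x => dg x.2 (Gd g A u x.1) z := fun L hL x' => by
  have a2 := eig hL (sm_p2 hA z) (a := 1) (fun v => by simp [p2]) x'.2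
  simp only [dg_Gd hg hA hu h1, Fintype.sum_prod_type]
  calc _ = u z * ((∑ n, ((Bs L x'.1 n * la n : ℝ) : ℂ)) * ∑ γ : Fin k → Ix,
        ((∏ j, Bs L (x'.2 j) (γ j) : ℝ) : ℂ) *
          iteratedFDeriv ℝ k (p2 A z) 0 (fun j => bas (γ j) 1)) := by
        rw [Finset.sum_mul_sum, Finset.mul_sum]
        refine Finset.sum_congr rfl fun n _ => ?_
        rw [Finset.mul_sum]
        exact Finset.sum_congr rfl fun γ _ => by push_cast; ring
    _ = _ := by
        rw [a2, ← Complex.ofReal_sum, Bs_la hL]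
        push_cast
        ring

lemma dg_Gd0 (h1 : ∀ z ∈ tsupport u, ∀ᶠ y in 𝓝 (pl z), g y = 1) (x : Ix × (Fin 0 → Ix))
    (z : V) : dg x.2 (Gd g A u x.1) z = ((la x.1 * (A (be z) * u z) : ℝ) : ℂ) := by
  simp [dg_Gd hg hA hu h1, p2]
  ring

include hB

lemma dD_Gc (v : V) (n : Ix) :
    dD (i2 v) (Gc i g A B u n) = Gc i g A B (fd v u) n - (tx v i : ℂ) • Gd g A u n := by
  have hu' := tst_fd' v hu
  rw [Gc, map_add, map_smul, map_smul, map_sub, dD_PP (tst_rp (tst_xm i hg) hA) hu,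
    dD_PP (tst_rp hg hA) (tst_xv i hu), dD_PP (tst_rp hg hB) hu]
  ext z
  simp only [SchwartzMap.add_apply, SchwartzMap.sub_apply, SchwartzMap.smul_apply,
    PP_ap (tst_rp (tst_xm i hg) hA) hu', PP_ap (tst_rp hg hA) (tst_fd' v (tst_xv i hu)),
    PP_ap (tst_rp hg hB) hu', Gc_ap hg hA hB hu', Gd_ap hg hA hu, smul_eq_mul]
  simp only [fd_xv i hu, rp, xm, xv, pl_2, la]
  push_cast
  ring

lemma hD_Gc (K : I2) (n : Ix) : hD i2 K (Gc i g A B u n) =
    (gm K : ℂ) • Gc i g A B (fd va (fd va u)) n + (ll K : ℂ) •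
      ((6 : ℂ) • Gc i g A B (fd va (fd vb u)) n -
        (3 : ℂ) • ∑ j, Gc i g A B (fd (ex j) (fd (ex j) u)) n +
        (6 : ℂ) • Gd g A (fd (ex i) u) n) := by
  simp only [hD, bD_null, ContinuousLinearMap.add_apply, ContinuousLinearMap.smul_apply,
    ContinuousLinearMap.sub_apply, ContinuousLinearMap.sum_apply, ContinuousLinearMap.mul_apply,
    dD_Gc hg hA hB hu, dD_Gc hg hA hB (tst_fd' _ hu), map_sub, map_smul, dD_Gd hg hA hu, tx_va,
    tx_vb, tx_ex, Pi.zero_apply, Complex.ofReal_zero, zero_smul, sub_zero, ll, Fin.sum_univ_two]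
  fin_cases i <;> simp [e2] <;> module

lemma wb_Gc (h1 : ∀ z ∈ tsupport u, ∀ᶠ y in 𝓝 (pl z), g y = 1) (k : ℕ) (z : V) :
    Wb (k := k) (k + 0) fun x => dg x.2 (Gc i g A B u x.1) z := fun L hL x' => by
  have hq : 0 < Real.sqrt L := Real.sqrt_pos.2 hL
  have a1 := eig hL (sm_p1 i hA z) (a := Real.sqrt L) (fun v => by simp [p1, mul_assoc]) x'.2
  have a2 := eig hL (sm_p2 hB z) (a := 1) (fun v => by simp [p2]) x'.2
  have hq' : (Real.sqrt L : ℂ) ≠ 0 := Complex.ofReal_ne_zero.2 hq.ne'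
  simp only [dg_Gc hg hA hB hu h1, Fintype.sum_prod_type]
  calc _ = u z * ((∑ n, ((Bs L x'.1 n * la n : ℝ) : ℂ)) * ∑ γ : Fin k → Ix,
        ((∏ j, Bs L (x'.2 j) (γ j) : ℝ) : ℂ) *
          iteratedFDeriv ℝ k (p1 i A z) 0 (fun j => bas (γ j) 1) +
        (∑ n, ((Bs L x'.1 n * (eta n * ex i n) : ℝ) : ℂ)) * ∑ γ : Fin k → Ix,
        ((∏ j, Bs L (x'.2 j) (γ j) : ℝ) : ℂ) *
          iteratedFDeriv ℝ k (p2 B z) 0 (fun j => bas (γ j) 1)) := by
        rw [Finset.sum_mul_sum, Finset.sum_mul_sum, ← Finset.sum_add_distrib, Finset.mul_sum]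
        refine Finset.sum_congr rfl fun n _ => ?_
        rw [← Finset.sum_add_distrib, Finset.mul_sum]
        refine Finset.sum_congr rfl fun γ _ => ?_
        rw [la]
        push_cast
        ring
    _ = _ := by
        rw [a1, a2, ← Complex.ofReal_sum, ← Complex.ofReal_sum, Bs_la hL, Bs_ex hL, la, add_zero]
        push_cast
        field_simp

end

/-! ## the contact terms -/

variable {D : Type*} [NormedAddCommGroup D] [InnerProductSpace ℂ D] {c : Ctx D}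

/-- the divergence, contracted with `α` in the second leg -/
def DK (w : I2 → I2 → S2 →L[ℂ] Completion D) (α : I2 → ℝ) (G : Ix → S2) : Completion D :=
  ∑ n, ∑ K, (α K : ℂ) • dvL w n K (G n)

lemma dvT_lw (w : I2 → I2 → S2 →L[ℂ] Completion D) (k : V) (G : S2) :
    dvT (lw w) k G = ∑ n, ∑ K, dvL w n K (hD i2 K (((eta n * k n : ℝ) : ℂ) • G)) := by
  refine Finset.sum_congr rfl fun n _ => ?_
  simp only [dvL_ap, dv1, lw, ContinuousLinearMap.smul_apply, ← Finset.smul_sum, sum_eta, wW_ap,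
    ← dD_apply, hD_dD, map_smul]
  rw [Finset.sum_comm]

lemma DV_eq (w : I2 → I2 → S2 →L[ℂ] Completion D) {i : Fin 2} {g : P3 → ℝ} {A B : ℝ → ℝ}
    {u : V → ℝ} (hg : Tst g) (hA : Tst A) (hB : Tst B) (hu : Tst u) : DV (lw w) i g A B u =
      DK w gm (Gc i g A B (fd va (fd va u))) + ((6 : ℂ) • DK w ll (Gc i g A B (fd va (fd vb u))) -
        (3 : ℂ) • ∑ j, DK w ll (Gc i g A B (fd (ex j) (fd (ex j) u))) +
        (6 : ℂ) • DK w ll (Gd g A (fd (ex i) u))) := by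
  calc _ = ∑ n, ∑ K, dvL w n K (hD i2 K (Gc i g A B u n)) := by
        simp only [DV, dvT_lw, Gc, smul_sub, map_add, map_sub, Finset.sum_add_distrib,
          Finset.sum_sub_distrib]
    _ = _ := by
        simp only [hD_Gc hg hA hB hu, Fin.sum_univ_two]
        simp only [DK, map_add, map_sub, map_smul, smul_add, smul_sub, Finset.sum_add_distrib,
          Finset.sum_sub_distrib, Finset.smul_sum, smul_comm (ll _ : ℂ)]

variable {w : ℝ → ℝ → I2 → I2 → S2 →L[ℂ] Completion D}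

theorem piece (hg : GRP c) (hs : STRUCT c) (hp : POLY c) (hw : TP2 c.Q c.TT false w) {f : Fn}
    (hf : IsTest f) {α : I2 → ℝ} {e : ℕ} (hα : W2 e α) (a0 : Ix × (Fin 0 → Ix) → ℝ)
    (a1 : Ix × (Fin 1 → Ix) → ℝ) : ∃ C : ℝ, 0 ≤ C ∧ ∀ (G : Ix → S2) (e' : ℕ) (F0 F1 : V → ℝ),
      (∀ n, HasCompactSupport (G n)) → (∀ k z, Wb (k := k) (k + e') fun x => dg x.2 (G x.1) z) →
      (∀ (x : Ix × (Fin 0 → Ix)) z, dg x.2 (G x.1) z = ((a0 x * F0 z : ℝ) : ℂ)) →
      (2 ≤ e + e' ∨ ∀ (x : Ix × (Fin 1 → Ix)) z, dg x.2 (G x.1) z = ((a1 x * F1 z : ℝ) : ℂ)) →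
      ‖inner ℂ (DK (w c.tau c.tau) α G) (c.Wv f)‖ ≤ C * ((∫ z, |F0 z|) + ∫ z, |F1 z|) := by
  have pp : inner ℂ (c.Wv f) c.Om = 0 := inner_eq_zero_symm.1 (CK.perp_Wv hg hf)
  obtain ⟨f, rfl⟩ := hf
  obtain ⟨k0, J, O, h1, -, h3⟩ := hs false w hw 0 0
  have hq : ∀ k : ℕ, ∃ q, Ov c (5 - k) (O k c.tau) q := fun k =>
    ex_ov hp (by simpa using h1 k) ⟨1 - k, by push_cast; ring⟩ _
  choose q hq using hq
  obtain ⟨C0, b0, hC0⟩ := (hq 0).bd' f (un3 fun K x => α K * a0 x)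
  obtain ⟨C1, b1, hC1⟩ := (hq 1).bd' f (un3 fun K x => α K * a1 x)
  refine ⟨C0 + C1, by positivity, fun G e' F0 F1 cs wb d0 d1 => ?_⟩
  set T : (k : ℕ) → (Fin (k + 3) → Ix) → Sch := fun k =>
    un3 fun K x => (α K : ℂ) • dg x.2 (G x.1) with hT
  set a : ℕ → ℂ := fun k => (k.factorial : ℂ)⁻¹ *
    inner ℂ (c.Wv (ev f)) (∑ ν, O k c.tau ν (T k ν)) with ha
  choose κ hκ using fun n K => h3 c.tau n K (G n) (cs n)
  simp only [add_zero] at hκ
  have e0 : inner ℂ (c.Wv (ev f)) (DK (w c.tau c.tau) α G) = ∑ k ∈ Finset.range (k0 + 1), a k := by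
    simp only [DK, dvL_ap, hκ, ha, hT, sum_ix3, un3_ix3, inner_sum, inner_smul_right,
      inner_add_right, pp, mul_zero, add_zero, map_smul, Finset.mul_sum, Fintype.sum_prod_type]
    symm
    rw [Finset.sum_congr rfl fun k _ =>
      (Finset.sum_congr rfl fun _ _ => Finset.sum_comm).trans Finset.sum_comm, Finset.sum_comm]
    refine Finset.sum_congr rfl fun n _ => ?_
    rw [Finset.sum_comm]
    refine Finset.sum_congr rfl fun r _ => ?_
    rw [Finset.sum_comm]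
    exact Finset.sum_congr rfl fun s _ => Finset.sum_congr rfl fun k _ =>
      Finset.sum_congr rfl fun γ _ => mul_left_comm _ _ _
  have z : ∀ k, 3 < 2 * k + e + e' → ‖a k‖ = 0 := fun k hk => by
    simp only [ha]
    rw [(hq k).zero f (e := e + (k + e')) (by push_cast; omega) _ fun z => wg_un3 hα (wb k z)]
    simp
  have n0 : 0 ≤ ∫ z, |F0 z| := integral_nonneg fun _ => abs_nonneg _
  have n1 : 0 ≤ ∫ z, |F1 z| := integral_nonneg fun _ => abs_nonneg _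
  have u0 : ‖a 0‖ ≤ C0 * ∫ z, |F0 z| := by
    simpa [ha] using hC0 (T 0) F0 fun ν z => by
      simp only [hT, un3, SchwartzMap.smul_apply, d0 (_, _), smul_eq_mul]
      push_cast
      ring
  have u1 : ‖a 1‖ ≤ C1 * ∫ z, |F1 z| := by
    rcases d1 with d1 | d1
    · rw [z 1 (by omega)]
      positivity
    · simpa [ha] using hC1 (T 1) F1 fun ν z => by
        simp only [hT, un3, SchwartzMap.smul_apply, d1 (_, _), smul_eq_mul]
        push_cast
        ring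
  rw [norm_inner_symm, e0]
  calc _ ≤ ∑ k ∈ Finset.range (k0 + 1), ‖a k‖ := norm_sum_le _ _
    _ ≤ ∑ k ∈ Finset.range (k0 + 1 + 1), ‖a k‖ := Finset.sum_le_sum_of_subset_of_nonneg
        (Finset.range_subset_range.2 (by omega)) fun _ _ _ => norm_nonneg _
    _ = ‖a 1‖ + ‖a 0‖ := by
        rw [Finset.sum_range_succ', Finset.sum_range_succ',
          Finset.sum_eq_zero fun k _ => z _ (by omega), zero_add]
    _ ≤ _ := by nlinarith [mul_nonneg b0 n1, mul_nonneg b1 n0]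

/-- **The contact terms are small for thin test functions.** -/
theorem contact (hg : GRP c) (hs : STRUCT c) (hp : POLY c) (hw : TP2 c.Q c.TT false w) (i : Fin 2)
    {f : Fn} (hf : IsTest f) : ∃ C : ℝ, 0 ≤ C ∧ ∀ (g : P3 → ℝ) (A B : ℝ → ℝ) (u : V → ℝ) (M : ℝ),
      Tst g → Tst A → Tst B → Tst u → (∀ z ∈ tsupport u, ∀ᶠ y in 𝓝 (pl z), g y = 1) →
      (∀ z ∈ tsupport u, deriv B (be z) = A (be z)) →
      ∫ z, |A (be z) * fd va (fd va u) z| ≤ M → ∫ z, |B (be z) * fd va (fd va u) z| ≤ M →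
      ∫ z, |B (be z) * fd va (fd vb u) z| ≤ M →
      (∀ j, ∫ z, |B (be z) * fd (ex j) (fd (ex j) u) z| ≤ M) →
      ∫ z, |A (be z) * fd (ex i) u z| ≤ M →
      ‖inner ℂ (DV (lw (w c.tau c.tau)) i g A B u) (c.Wv f)‖ ≤ C * M := by
  obtain ⟨C1, b1, h1⟩ := piece hg hs hp hw hf w2_gm (fun x => eta x.1 * ex i x.1) fun x =>
    eta x.1 * va x.1 * tx (bas (x.2 0) 1) i + eta x.1 * ex i x.1 * be (bas (x.2 0) 1)
  obtain ⟨C2, b2, h2⟩ := piece hg hs hp hw hf w2_ll (fun x => eta x.1 * ex i x.1) 0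
  obtain ⟨C3, b3, h3⟩ := piece hg hs hp hw hf w2_ll (fun x => la x.1) 0
  refine ⟨2 * C1 + (6 * C2 + 3 * (C2 + C2) + 6 * C3), by positivity,
    fun g A B u M hg' hA hB hu e1 e2 m1 m2 m3 m4 m5 => ?_⟩
  have t2 := fun v v' => tst_fd' v (tst_fd' v' hu)
  have s2 : ∀ v v', ∀ z ∈ tsupport (fd v (fd v' u)), ∀ᶠ y in 𝓝 (pl z), g y = 1 :=
    fun v v' z hz => e1 z (supp_fd _ _ (supp_fd _ _ hz))
  have s1 : ∀ z ∈ tsupport (fd (ex i) u), ∀ᶠ y in 𝓝 (pl z), g y = 1 :=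
    fun z hz => e1 z (supp_fd _ _ hz)
  have q1 := h1 _ 0 _ _ (Gc_cs hg' hA hB (t2 va va)) (wb_Gc hg' hA hB (t2 _ _) (s2 _ _))
    (dg_zero hg' hA hB (t2 _ _) (s2 _ _)) (.inr (dg_one hg' hA hB (t2 _ _) (s2 _ _) fun z => by
      by_cases hz : z ∈ tsupport (fd va (fd va u))
      · rw [e2 z (supp_fd _ _ (supp_fd _ _ hz))]
      · simp [image_eq_zero_of_notMem_tsupport hz]))
  have q2 := fun v v' => h2 _ 0 _ 0 (Gc_cs (i := i) hg' hA hB (t2 v v'))
    (wb_Gc hg' hA hB (t2 _ _) (s2 _ _)) (dg_zero hg' hA hB (t2 _ _) (s2 _ _)) (.inl le_rfl)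
  have q3 := h3 _ 1 _ 0 (Gd_cs hg' hA (tst_fd' (ex i) hu)) (wb_Gd hg' hA (tst_fd' _ hu) s1)
    (dg_Gd0 hg' hA (tst_fd' _ hu) s1) (.inl (by norm_num))
  simp only [Pi.zero_apply, abs_zero, integral_zero, add_zero] at q2 q3
  have r2 := (q2 va vb).trans (mul_le_mul_of_nonneg_left m3 b2)
  have r3 := fun j => (q2 _ _).trans (mul_le_mul_of_nonneg_left (m4 j) b2)
  have r4 := q3.trans (mul_le_mul_of_nonneg_left m5 b3)
  have r1 := q1.trans (mul_le_mul_of_nonneg_left (add_le_add m2 m1) b1)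
  rw [DV_eq _ hg' hA hB hu, Fin.sum_univ_two]
  simp only [inner_add_left, inner_sub_left, inner_smul_left, map_ofNat]
  refine (norm_add_le _ _).trans ((add_le_add r1 ((norm_add_le _ _).trans (add_le_add
    ((norm_sub_le _ _).trans (add_le_add (b := 6 * (C2 * M)) (d := 3 * (C2 * M + C2 * M)) ?_ ?_))
      (?_ : _ ≤ 6 * (C3 * M))))).trans_eq (by ring))
  all_goals rw [norm_mul, Complex.norm_ofNat]; gcongr
  exact (norm_add_le _ _).trans (add_le_add (r3 0) (r3 1))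

end

end Vale.Agent.P352L.Cm
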